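import Vale.Agent.P231.Final.Normal

/-!
Growth of the normalised functions at both ends of `(0, π / 2)`.
-/

namespace Vale.Agent.P231

open Real Set

variable {l k : ℕ} {S : JacobiSystem l k}

theorem meanInv_nonneg (F : JacobiFacts S) {t : ℝ} (ht : t ∈ Good) : 0 ≤ meanInv S t := by
  have h : ∀ x, 0 ≤ invGram (S.A x (x + t)) := fun x => by
    unfold invGram
    have := Matrix.posSemidef_conjTranspose_mul_self (S.A x (x + t))
    rw [Matrix.conjTranspose_eq_transpose_of_trivial] at this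
    exact this.inv.trace_nonneg
  have := mean_mono continuous_const (continuous_invGram_line F ht) h
  rwa [mean_const] at this

theorem meanRicc_antitone (F : JacobiFacts S) : AntitoneOn (meanRicc S) (Ioo 0 (π / 2)) := by
  have hd : ∀ t ∈ Ioo (0 : ℝ) (π / 2), HasDerivAt (meanRicc S) (-meanInv S t) t :=
    fun t ht => hasDerivAt_meanRicc F (good_of_pos ht.1 ht.2)
  refine antitoneOn_of_hasDerivWithinAt_nonpos (convex_Ioo _ _) (f' := fun t => -meanInv S t)
    (fun t ht => (hd t ht).continuousAt.continuousWithinAt) ?_ ?_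
  · intro t ht
    rw [interior_Ioo] at ht
    exact (hd t ht).hasDerivWithinAt
  · intro t ht
    rw [interior_Ioo] at ht
    exact neg_nonpos.2 (meanInv_nonneg F (good_of_pos ht.1 ht.2))

theorem meanLog_chord (F : JacobiFacts S) {a b : ℝ} (ha : 0 < a) (hab : a < b) (hb : b < π / 2) :
    meanLog S b - meanLog S a ≤ (b - a) * meanRicc S a := by
  have hd : ∀ t ∈ Icc a b, HasDerivAt (meanLog S) (meanRicc S t) t := fun t ht =>
    hasDerivAt_meanLog F (good_of_pos (by linarith [ht.1]) (by linarith [ht.2]))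
  obtain ⟨c, hc, heq⟩ := exists_hasDerivAt_eq_slope (meanLog S) (meanRicc S) hab
    (fun t ht => (hd t ht).continuousAt.continuousWithinAt) fun t ht => hd t ⟨ht.1.le, ht.2.le⟩
  have := meanRicc_antitone F ⟨ha, hab.trans hb⟩ ⟨by linarith [hc.1], by linarith [hc.2]⟩ hc.1.le
  rw [heq, div_le_iff₀ (by linarith)] at this
  linarith

theorem abs_log_sin_cos_le {t : ℝ} (ht : t ∈ Ioc (0 : ℝ) (π / 4)) :
    |log (sin t * cos t)| ≤ |log t| + 4 ∧ |log (sin t)| ≤ |log t| + 4 ∧
      |log (cos t)| ≤ |log t| + 4 := by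
  have hpi := pi_pos
  obtain ⟨hs, hc⟩ := sin_cos_pos_pair (t := t) ⟨ht.1, by linarith [ht.2]⟩
  have h1 := sin_mul_cos_lower ht
  have hs1 := sin_le_one t
  have hc1 := cos_le_one t
  have hlp : log π ≤ 4 := (log_le_sub_one_of_pos hpi).trans (by linarith [pi_le_four])
  have key : ∀ u, t / π ≤ u → u ≤ 1 → |log u| ≤ |log t| + 4 := by
    intro u hu hu1
    have hu0 : 0 < u := lt_of_lt_of_le (div_pos ht.1 hpi) hu
    have := log_le_log (div_pos ht.1 hpi) hu
    rw [log_div ht.1.ne' hpi.ne'] at this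
    rw [abs_of_nonpos (log_nonpos hu0.le hu1)]
    linarith [neg_abs_le (log t)]
  refine ⟨key _ h1 (mul_le_one₀ hs1 hc.le hc1), key _ ?_ hs1, key _ ?_ hc1⟩
  · exact h1.trans (mul_le_of_le_one_right hs.le hc1)
  · exact h1.trans (mul_le_of_le_one_left hc.le hs1)

theorem exists_dev_growth (hS : StraddleGoal) (hC : CofTransposeGoal) (F : JacobiFacts S)
    (K : KernelFacts S)
    (hG : ∃ C : ℝ, ∀ t ∈ Ioc (0 : ℝ) (π / 4), |meanLog S t - (l + k) * log t| ≤ C ∧
      |meanGram S t - l * log t| ≤ C ∧ |t * meanRicc S t| ≤ C) :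
    ∃ C, ∀ t ∈ Ioc (0 : ℝ) (π / 4),
      |dev S t| ≤ C * (1 + |log t|) ∧ |dev S (π / 2 - t)| ≤ C * (1 + |log t|) ∧
      t * |dev' S t| ≤ C * (1 + |log t|) ∧ t * |dev' S (π / 2 - t)| ≤ C * (1 + |log t|) := by
  obtain ⟨C, hC'⟩ := hG
  have hpi := pi_pos
  have hpi4 : π / 4 ≤ 1 := by linarith [pi_le_four]
  set m : ℝ := (l : ℝ) + k with hm
  set h4 := meanRicc S (π / 4) with hh4
  set G4 := meanLog S (π / 4) with hG4
  set A := |meanCof S| + 5 * m + 4 * C + |h4| + |G4| + k * 5 with hA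
  have hm0 : 0 ≤ m := by positivity
  have hl0 : (0 : ℝ) ≤ l := Nat.cast_nonneg l
  have hk0 : (0 : ℝ) ≤ k := Nat.cast_nonneg k
  -- `meanLog` near `π / 2`
  have hlow : ∀ t ∈ Ioc (0 : ℝ) (π / 4),
      -(A + (3 * m + k) * |log t|) ≤ meanLog S (π / 2 - t) ∧
        meanLog S (π / 2 - t) ≤ |G4| + |h4| := by
    intro t ht
    have ht' : t ∈ Ioo (0 : ℝ) (π / 2) := ⟨ht.1, by linarith [ht.2]⟩
    have hr := mem_flip ht'
    obtain ⟨hs, hc⟩ := sin_cos_pos_pair ht'
    constructor
    · have key := meanStraddle_le hS hC F K ht'.1 ht'.2 (γ := 1 / (sin t * cos t)) (by positivity)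
      rw [one_div, log_inv, div_inv_eq_mul] at key
      obtain ⟨c1, c2, c3⟩ := hC' t ht
      have hsc : |sin t * cos t| ≤ t := abs_sin_mul_cos_le ht.1.le
      rw [abs_of_pos (mul_pos hs hc)] at hsc
      have hh : meanRicc S (π / 2 - t) ≤ h4 :=
        meanRicc_antitone F ⟨by linarith, by linarith⟩ hr (by linarith [ht.2])
      have b1 : meanRicc S t * (sin t * cos t) ≤ C :=
        calc meanRicc S t * (sin t * cos t) ≤ |meanRicc S t| * (sin t * cos t) :=
              mul_le_mul_of_nonneg_right (le_abs_self _) (by positivity)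
          _ ≤ |meanRicc S t| * t := mul_le_mul_of_nonneg_left hsc (abs_nonneg _)
          _ = |t * meanRicc S t| := by rw [abs_mul, abs_of_pos ht.1, mul_comm]
          _ ≤ C := c3
      have b2 : meanRicc S (π / 2 - t) * (sin t * cos t) ≤ |h4| :=
        calc meanRicc S (π / 2 - t) * (sin t * cos t) ≤ |h4| * (sin t * cos t) :=
              mul_le_mul_of_nonneg_right (hh.trans (le_abs_self _)) (by positivity)
          _ ≤ |h4| * 1 := mul_le_mul_of_nonneg_left (by linarith [ht.2]) (abs_nonneg _)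
          _ = |h4| := mul_one _
      have g := (abs_log_sin_cos_le ht).1
      have b3 : (k : ℝ) * -log (sin t * cos t) ≤ k * (|log t| + 4) :=
        mul_le_mul_of_nonneg_left ((neg_le_abs _).trans g) hk0
      have b4 : (l : ℝ) * log t ≥ -(l * |log t|) := by
        linarith [mul_le_mul_of_nonneg_left (neg_abs_le (log t)) hl0]
      have b5 : m * log t ≤ m * |log t| := mul_le_mul_of_nonneg_left (le_abs_self _) hm0
      have b6 : (l : ℝ) * |log t| ≤ m * |log t| :=
        mul_le_mul_of_nonneg_right (by linarith) (abs_nonneg _)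
      linarith [abs_le.1 c1, abs_le.1 c2, neg_abs_le (meanCof S), abs_nonneg h4, abs_nonneg G4]
    · rcases eq_or_lt_of_le ht.2 with h | h
      · rw [h, show π / 2 - π / 4 = π / 4 by ring]
        linarith [le_abs_self G4, abs_nonneg h4]
      · have := meanLog_chord F (a := π / 4) (b := π / 2 - t) (by linarith) (by linarith) hr.2
        have e : (π / 2 - t - π / 4) * h4 ≤ |h4| :=
          calc (π / 2 - t - π / 4) * h4 ≤ (π / 2 - t - π / 4) * |h4| :=
                mul_le_mul_of_nonneg_left (le_abs_self _) (by linarith)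
            _ ≤ 1 * |h4| := mul_le_mul_of_nonneg_right (by linarith [ht.1]) (abs_nonneg _)
            _ = |h4| := one_mul _
        linarith [le_abs_self G4]
  refine ⟨4 * (A + 3 * m + k) + 4 * π * m + 8 * m + 4 * (|G4| + |h4|), fun t ht => ?_⟩
  have ht' : t ∈ Ioo (0 : ℝ) (π / 2) := ⟨ht.1, by linarith [ht.2]⟩
  have hr := mem_flip ht'
  obtain ⟨hs, hc⟩ := sin_cos_pos_pair ht'
  obtain ⟨c1, c2, c3⟩ := hC' t ht
  obtain ⟨l1, l2, l3⟩ := abs_log_sin_cos_le ht
  have hL : 0 ≤ |log t| := abs_nonneg _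
  have hC0 : 0 ≤ C := (abs_nonneg _).trans c3
  have hA0 : 0 ≤ A := by positivity
  have hA' : C + 5 * m ≤ A := by linarith [abs_nonneg (meanCof S), abs_nonneg h4, abs_nonneg G4]
  have hX : 0 ≤ (A + 3 * m + k) * |log t| := by positivity
  have hAL : 0 ≤ A * |log t| := mul_nonneg hA0 hL
  have hY : 0 ≤ π * m * |log t| := by positivity
  have hZ : 0 ≤ m * |log t| := by positivity
  have hW : 0 ≤ (|G4| + |h4|) * |log t| := by positivity
  have hkL : 0 ≤ (k : ℝ) * |log t| := by positivity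
  have lm1 : |(l : ℝ) * log (sin t * cos t)| ≤ l * (|log t| + 4) := by
    rw [abs_mul, abs_of_nonneg hl0]; exact mul_le_mul_of_nonneg_left l1 hl0
  have lm2 : |(k : ℝ) * log (sin t)| ≤ k * (|log t| + 4) := by
    rw [abs_mul, abs_of_nonneg hk0]; exact mul_le_mul_of_nonneg_left l2 hk0
  have lm3 : |(k : ℝ) * log (cos t)| ≤ k * (|log t| + 4) := by
    rw [abs_mul, abs_of_nonneg hk0]; exact mul_le_mul_of_nonneg_left l3 hk0
  have hsc := sin_mul_cos_lower ht
  have hinv : t * (1 / (sin t * cos t)) ≤ π := by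
    rw [mul_one_div, div_le_iff₀ (mul_pos hs hc), mul_comm π]
    exact (div_le_iff₀ hpi).1 hsc
  have hcc : |cos t ^ 2 - sin t ^ 2| ≤ 1 := by rw [← cos_two_mul']; exact abs_cos_le_one _
  have hm4 : 0 ≤ π * m := by positivity
  have hfrac : ∀ num : ℝ, |num| ≤ 1 → t * |num / (sin t * cos t)| ≤ π := by
    intro num hn
    rw [abs_div, abs_of_pos (mul_pos hs hc)]
    exact le_trans (mul_le_mul_of_nonneg_left
      (div_le_div_of_nonneg_right hn (mul_pos hs hc).le) ht.1.le) hinv
  refine ⟨?_, ?_, ?_, ?_⟩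
  · have b : |m * log t| ≤ m * |log t| := by rw [abs_mul, abs_of_nonneg hm0]
    simp only [dev, logModel]
    refine abs_le.2 ⟨?_, ?_⟩ <;>
      linarith [abs_le.1 c1, abs_le.1 lm1, abs_le.1 lm2, abs_le.1 b, abs_nonneg h4, abs_nonneg G4]
  · obtain ⟨u1, u2⟩ := hlow t ht
    simp only [dev, logModel, sin_pi_div_two_sub, cos_pi_div_two_sub, mul_comm (cos t) (sin t)]
    refine abs_le.2 ⟨?_, ?_⟩ <;>
      linarith [abs_le.1 lm1, abs_le.1 lm3, abs_nonneg h4, abs_nonneg G4]
  · have e : cos t / sin t = cos t ^ 2 / (sin t * cos t) := by field_simp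
    have h2 : |cos t ^ 2| ≤ 1 := by rw [abs_pow]; exact pow_le_one₀ (abs_nonneg _) (abs_cos_le_one t)
    have p1 := mul_le_mul_of_nonneg_left (hfrac _ hcc) hl0
    have p2 := mul_le_mul_of_nonneg_left (hfrac _ h2) hk0
    have c3' : t * |meanRicc S t| ≤ C := by rwa [abs_mul, abs_of_pos ht.1] at c3
    simp only [dev', e]
    calc t * |meanRicc S t - (l * ((cos t ^ 2 - sin t ^ 2) / (sin t * cos t))
          + k * (cos t ^ 2 / (sin t * cos t)))|
        ≤ t * (|meanRicc S t| + (l * |(cos t ^ 2 - sin t ^ 2) / (sin t * cos t)|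
          + k * |cos t ^ 2 / (sin t * cos t)|)) := by
          refine mul_le_mul_of_nonneg_left ((abs_sub _ _).trans (add_le_add le_rfl
            ((abs_add_le _ _).trans (le_of_eq ?_)))) ht.1.le
          rw [abs_mul (l : ℝ), abs_mul (k : ℝ), abs_of_nonneg hl0, abs_of_nonneg hk0]
      _ ≤ _ := by linarith [abs_nonneg h4, abs_nonneg G4]
  · obtain ⟨u1, u2⟩ := hlow t ht
    have ht2 : t / 2 ∈ Ioc (0 : ℝ) (π / 4) := ⟨by linarith [ht.1], by linarith [ht.2]⟩
    obtain ⟨v1, -⟩ := hlow _ ht2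
    have hchord := meanLog_chord F (a := π / 2 - t) (b := π / 2 - t / 2) hr.1
      (by linarith [ht.1]) (by linarith [ht.1])
    have hlog2 : |log (t / 2)| ≤ |log t| + 1 := by
      rw [log_div ht.1.ne' two_ne_zero]
      refine (abs_sub _ _).trans (add_le_add le_rfl ?_)
      rw [abs_of_pos (log_pos one_lt_two)]
      linarith [log_le_sub_one_of_pos two_pos]
    have v2 : (3 * m + k) * |log (t / 2)| ≤ (3 * m + k) * (|log t| + 1) :=
      mul_le_mul_of_nonneg_left hlog2 (by positivity)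
    have hup : t * meanRicc S (π / 2 - t) ≤ |h4| := by
      have := meanRicc_antitone F ⟨by linarith, by linarith⟩ hr (by linarith [ht.2] : π / 4 ≤ π / 2 - t)
      calc t * meanRicc S (π / 2 - t) ≤ t * |h4| :=
            mul_le_mul_of_nonneg_left (this.trans (le_abs_self _)) ht.1.le
        _ ≤ 1 * |h4| := mul_le_mul_of_nonneg_right (by linarith [ht.2]) (abs_nonneg _)
        _ = |h4| := one_mul _
    have hbd : |t * meanRicc S (π / 2 - t)|
        ≤ 2 * (A + (3 * m + k) * (|log t| + 1)) + 2 * (|G4| + |h4|) := by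
      have hpos : 0 ≤ (3 * m + k) * (|log t| + 1) := by positivity
      refine abs_le.2 ⟨?_, ?_⟩ <;> linarith [abs_nonneg h4, abs_nonneg G4]
    have e : sin t / cos t = sin t ^ 2 / (sin t * cos t) := by field_simp
    have hsub : |sin t ^ 2 - cos t ^ 2| ≤ 1 := by rwa [abs_sub_comm]
    have h2 : |sin t ^ 2| ≤ 1 := by rw [abs_pow]; exact pow_le_one₀ (abs_nonneg _) (abs_sin_le_one t)
    have p1 := mul_le_mul_of_nonneg_left (hfrac _ hsub) hl0
    have p2 := mul_le_mul_of_nonneg_left (hfrac _ h2) hk0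
    rw [abs_mul, abs_of_pos ht.1] at hbd
    simp only [dev', sin_pi_div_two_sub, cos_pi_div_two_sub, e, mul_comm (cos t) (sin t)]
    calc t * |meanRicc S (π / 2 - t) - (l * ((sin t ^ 2 - cos t ^ 2) / (sin t * cos t))
          + k * (sin t ^ 2 / (sin t * cos t)))|
        ≤ t * (|meanRicc S (π / 2 - t)| + (l * |(sin t ^ 2 - cos t ^ 2) / (sin t * cos t)|
          + k * |sin t ^ 2 / (sin t * cos t)|)) := by
          refine mul_le_mul_of_nonneg_left ((abs_sub _ _).trans (add_le_add le_rfl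
            ((abs_add_le _ _).trans (le_of_eq ?_)))) ht.1.le
          rw [abs_mul (l : ℝ), abs_mul (k : ℝ), abs_of_nonneg hl0, abs_of_nonneg hk0]
      _ ≤ _ := by linarith [abs_nonneg h4, abs_nonneg G4]

end Vale.Agent.P231
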