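import Vale.Agent.P231.Final.Bounds
import Vale.Agent.P231.Model
import Vale.Agent.P231.Growth
import Vale.Agent.P231.Rigidity
import Vale.Agent.P231.Kernel
import Vale.Agent.P231.Jacobi.Order
import Vale.Agent.P231.Matrix.InvGram
import Vale.Agent.P231.Matrix.Straddle
import Vale.Agent.P231.Matrix.Side
import Vale.Agent.P231.Matrix.Cof

/-!
The volume inequality along a closed geodesic and its equality case, given a certificate.
-/

namespace Vale.Agent.P231

open Matrix Real Set MeasureTheory

variable {l k : ℕ}

theorem eq_zero_of_mean {f : ℝ → ℝ} (hc : Continuous f) (hp : Function.Periodic f π)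
    (h0 : ∀ x, 0 ≤ f x) (hm : mean f = 0) (x : ℝ) : f x = 0 := by
  by_contra hx
  have hpi := pi_pos
  have hc' : Continuous fun s => f (s + x) := hc.comp (continuous_id.add continuous_const)
  have hpos : 0 < ∫ s in (0 : ℝ)..π, f (s + x) :=
    intervalIntegral.integral_pos hpi hc'.continuousOn (fun s _ => h0 _)
      ⟨0, ⟨le_rfl, hpi.le⟩, by rw [zero_add]; exact lt_of_le_of_ne (h0 x) (Ne.symm hx)⟩
  have : mean (fun s => f (s + x)) = 0 := by rw [mean_shift hp x, hm]
  rw [mean, div_eq_zero_iff] at this
  rcases this with h | h <;> linarith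

theorem modelJacobian_pos {t : ℝ} (ht : t ∈ Ioo (0 : ℝ) (π / 2)) : 0 < modelJacobian l k t := by
  obtain ⟨hs, hc⟩ := sin_cos_pos_pair ht
  unfold modelJacobian
  positivity

theorem exp_logModel {t : ℝ} (ht : t ∈ Ioo (0 : ℝ) (π / 2)) :
    exp (logModel l k t) = modelJacobian l k t := by
  obtain ⟨hs, hc⟩ := sin_cos_pos_pair ht
  rw [logModel, exp_add, exp_nat_mul, exp_nat_mul, exp_log (mul_pos hs hc), exp_log hs,
    modelJacobian]

theorem continuous_meanJacobian {S : JacobiSystem l k} (F : JacobiFacts S) :
    Continuous (meanJacobian S) := by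
  have : Continuous (Function.uncurry fun t x => |(S.A x (x + t)).det|) :=
    ((F.cont_A.comp (Continuous.prodMk continuous_snd (continuous_snd.add continuous_fst))).matrix_det).abs
  exact (intervalIntegral.continuous_parametric_intervalIntegral_of_continuous' this 0 π).div_const π

/-- The tangent-line bound for the mean density, and its equality case. -/
theorem exp_meanLog_le {S : JacobiSystem l k} (F : JacobiFacts S) {t : ℝ} (ht : t ∈ Good) :
    exp (meanLog S t) ≤ meanJacobian S t ∧
      (exp (meanLog S t) = meanJacobian S t →
        ∀ x, logAbsDet (S.A x (x + t)) = meanLog S t) := by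
  set G := meanLog S t with hG
  set L : ℝ → ℝ := fun x => logAbsDet (S.A x (x + t)) with hL
  have hLc : Continuous L := continuous_logAbsDet_line F ht
  have hd : ∀ x, |(S.A x (x + t)).det| = exp (L x) := fun x =>
    (exp_log (abs_pos.2 (det_ne_lag F (by simpa using ht)))).symm
  have hec : Continuous fun x => exp (L x) := hLc.rexp
  have hJ : meanJacobian S t = mean fun x => exp (L x) := by
    simp only [meanJacobian, hd]; rfl
  let f : ℝ → ℝ := fun x => exp (L x) - exp G * (1 + (L x - G))
  have hfc : Continuous f := hec.sub (continuous_const.mul (continuous_const.add (hLc.sub continuous_const)))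
  have hf0 : ∀ x, 0 ≤ f x := fun x => by
    have := mul_le_mul_of_nonneg_left (add_one_le_exp (L x - G)) (exp_pos G).le
    rw [← exp_add, add_sub_cancel] at this
    simp only [f]; linarith
  have hfm : mean f = meanJacobian S t - exp G := by
    have hLm : mean L = G := rfl
    have : f = fun x => 1 * exp (L x) + (-exp G) * L x + exp G * (G - 1) := by
      funext x; simp only [f]; ring
    rw [this, mean_lin2 hec hLc, hLm, hJ]; ring
  have h0 := mean_mono continuous_const hfc hf0
  rw [mean_const, hfm] at h0
  refine ⟨by linarith, fun he x => ?_⟩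
  have hp : Function.Periodic f π := fun y => by
    have := periodic_logAbsDet F t y
    simp only [f, hL] at this ⊢
    rw [this]
  have h := eq_zero_of_mean hfc hp hf0 (by rw [hfm]; linarith) x
  by_contra hne
  have := mul_lt_mul_of_pos_left (add_one_lt_exp (sub_ne_zero.2 hne)) (exp_pos G)
  rw [← exp_add] at this
  simp only [f] at h
  rw [show G + (logAbsDet (S.A x (x + t)) - G) = L x by rw [hL]; ring] at this
  simp only [hL] at this h
  linarith

/-- The averaged inequalities, collected. -/
theorem scalarData {S : JacobiSystem l k} (F : JacobiFacts S) (K : KernelFacts S) :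
    ScalarData (dev S) (dev' S) (dev'' S) (devGram S) (meanCof S) :=
  { deriv := fun _ ht => hasDerivAt_dev F ht
    deriv' := fun _ ht => hasDerivAt_dev' F ht
    fwd := fun _ ht => dev_fwd Lin.invGramGoal F K ht
    bwd := fun _ ht => dev_bwd Lin.invGramGoal F K ht
    straddle := fun _ ht => dev_straddle Lin.straddleGoal Lin.cofTransposeGoal F K ht
    side := fun _ ht => dev_side Lin.sideGoal F K ht
    growth := exists_dev_growth Lin.straddleGoal Lin.cofTransposeGoal F K (exists_growth F K) }

/-- Equality case: a vanishing deviation and a constant log-density force the model curvature. -/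
theorem isModelCurvature_of_pointwise {S : JacobiSystem l k} (F : JacobiFacts S) (K : KernelFacts S)
    (D : ScalarData (dev S) (dev' S) (dev'' S) (devGram S) (meanCof S))
    (key : ∀ t ∈ Ioo (0 : ℝ) (π / 2),
      dev S t = 0 ∧ ∀ x, logAbsDet (S.A x (x + t)) = meanLog S t) :
    IsModelCurvature S := by
  obtain ⟨-, heta⟩ := D.eq_zero fun t ht => (key t ht).1
  apply isModelCurvature_of_gram F K
  intro x t ht
  obtain ⟨hs, hc⟩ := sin_cos_pos_pair ht
  have gt := good_of_pos ht.1 ht.2
  set α := 1 / (sin t * cos t) ^ 2 with hα
  set β := 1 / sin t ^ 2 with hβ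
  have hα0 : 0 < α := by positivity
  have hβ0 : 0 < β := by positivity
  -- the mean slack vanishes
  have hInv : meanInv S t = l * α + k * β := by
    have e : dev' S =ᶠ[nhds t] fun _ => 0 := by
      filter_upwards [Ioo_mem_nhds ht.1 ht.2] with s hs'
      have e0 : dev S =ᶠ[nhds s] fun _ => 0 := by
        filter_upwards [Ioo_mem_nhds hs'.1 hs'.2] with u hu using (key u hu).1
      exact ((hasDerivAt_dev F hs').congr_of_eventuallyEq e0.symm).unique (hasDerivAt_const s 0)
    have := ((hasDerivAt_dev' F ht).congr_of_eventuallyEq e.symm).unique (hasDerivAt_const t 0)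
    rw [dev''] at this
    rw [hα, hβ]
    linear_combination -this
  let f : ℝ → ℝ := fun y => invGram (S.A y (y + t)) -
    (α * (l - 2 * logGram (kerProj S y) (S.A y (y + t)) - l * log α)
      + β * (k + 2 * logGram (kerProj S y) (S.A y (y + t)) - 2 * logAbsDet (S.A y (y + t))
        - k * log β))
  have hI := fun y => Lin.invGramGoal l k (S.A y (y + t)) (kerProj S y) α β rfl
    (det_ne_lag F (by simpa using gt)) (K.spec y).1 (K.spec y).2.1 (K.spec y).2.2.2 hα0 hβ0
  have c1 := continuous_invGram_line F gt
  have c2 := continuous_logGram_line F K gt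
  have c3 := continuous_logAbsDet_line F gt
  have hfc : Continuous f := by fun_prop
  have hf0 : ∀ y, 0 ≤ f y := fun y => sub_nonneg.2 (hI y).1
  have hfp : Function.Periodic f π := fun y => by
    have p1 := periodic_invGram F t y
    have p2 := periodic_logGram F K t y
    have p3 := periodic_logAbsDet F t y
    simp only [f] at p1 p2 p3 ⊢
    rw [p1, p2, p3]
  have hfm : mean f = 0 := by
    have e : f = fun y => 1 * invGram (S.A y (y + t))
        + (-1) * (2 * (β - α) * logGram (kerProj S y) (S.A y (y + t))
          + (-(2 * β)) * logAbsDet (S.A y (y + t))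
          + (α * (l - l * log α) + β * (k - k * log β))) + 0 := by
      funext y; simp only [f]; ring
    rw [e, mean_lin2 c1 (g := fun y => 2 * (β - α) * logGram (kerProj S y) (S.A y (y + t))
          + (-(2 * β)) * logAbsDet (S.A y (y + t))
          + (α * (l - l * log α) + β * (k - k * log β))) (by fun_prop), mean_lin2 c2 c3]
    have r1 : mean (fun y => logGram (kerProj S y) (S.A y (y + t))) = meanGram S t := rfl
    have r2 : mean (fun y => logAbsDet (S.A y (y + t))) = meanLog S t := rfl
    have r3 : mean (fun y => invGram (S.A y (y + t))) = meanInv S t := rfl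
    rw [r1, r2, r3, hInv]
    have g1 : meanGram S t = l * log (sin t * cos t) := by
      have := heta t ht; rw [devGram] at this; linarith
    have g2 : meanLog S t = logModel l k t := by
      have := (key t ht).1; rw [dev] at this; linarith
    rw [g1, g2, logModel, hα, hβ, log_inv_sq, log_inv_sq]
    ring
  have h := eq_zero_of_mean hfc hfp hf0 hfm x
  have := (hI x).2 (sub_eq_zero.1 h).symm
  rw [this, hα, hβ]
  simp only [one_div, inv_inv]

/-- **Volume inequality with rigidity**, for every `(l, k)` with a certificate. -/
theorem volume_rigidity (hl : 1 ≤ l) (c : Cert l k)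
    (S : JacobiSystem l k) :
    (∫ t in (0 : ℝ)..(π / 2), modelJacobian l k t) ≤ (∫ t in (0 : ℝ)..(π / 2), meanJacobian S t) ∧
    ((∫ t in (0 : ℝ)..(π / 2), modelJacobian l k t) = (∫ t in (0 : ℝ)..(π / 2), meanJacobian S t) ↔
      IsModelCurvature S) := by
  have hpi := pi_pos
  have F := jacobiFacts S
  have K := kernelFacts S F
  have D := scalarData F K
  obtain ⟨hint, hpos⟩ := D.integral_nonneg c hl
  have hH : (0 : ℝ) ≤ π / 2 := by positivity
  have hJ := continuous_meanJacobian F
  have hw : Continuous (modelJacobian l k) := by unfold modelJacobian; fun_prop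
  have hJ0 : ∀ t, 0 ≤ meanJacobian S t := fun t =>
    div_nonneg (intervalIntegral.integral_nonneg hpi.le fun x _ => abs_nonneg _) hpi.le
  have hle : ∀ t ∈ Icc (0 : ℝ) (π / 2),
      modelJacobian l k t + modelJacobian l k t * dev S t ≤ meanJacobian S t := by
    intro t ht
    rcases eq_or_lt_of_le ht.1 with h0 | h0
    · have : modelJacobian l k t = 0 := by
        simp [modelJacobian, ← h0, zero_pow (show l ≠ 0 by omega)]
      rw [this]; simpa using hJ0 t
    rcases eq_or_lt_of_le ht.2 with h1 | h1
    · have : modelJacobian l k t = 0 := by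
        simp [modelJacobian, h1, zero_pow (show l ≠ 0 by omega)]
      rw [this]; simpa using hJ0 t
    have h2 := (exp_meanLog_le F (good_of_pos h0 h1)).1
    have h3 : exp (meanLog S t) = modelJacobian l k t * exp (dev S t) := by
      rw [← exp_logModel ⟨h0, h1⟩, ← exp_add]; congr 1; unfold dev; ring
    have h4 := mul_le_mul_of_nonneg_left (add_one_le_exp (dev S t))
      (modelJacobian_pos (l := l) (k := k) ⟨h0, h1⟩).le
    linarith
  have hmono := intervalIntegral.integral_mono_on hH ((hw.intervalIntegrable _ _).add hint)
    (hJ.intervalIntegrable _ _) hle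
  rw [intervalIntegral.integral_add (hw.intervalIntegrable _ _) hint] at hmono
  refine ⟨by linarith, fun heq => ?_, fun hmod => ?_⟩
  · -- equality
    have hw0 : (∫ t in (0 : ℝ)..(π / 2), modelJacobian l k t * dev S t) = 0 := by linarith
    have hzero : ∀ t ∈ Ioo (0 : ℝ) (π / 2),
        modelJacobian l k t + modelJacobian l k t * dev S t = meanJacobian S t := by
      intro t ht
      by_contra hne
      let f : ℝ → ℝ := fun s => meanJacobian S s - (modelJacobian l k s + modelJacobian l k s * dev S s)
      have hfint : IntervalIntegrable f volume 0 (π / 2) :=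
        (hJ.intervalIntegrable _ _).sub ((hw.intervalIntegrable _ _).add hint)
      have htot : (∫ s in (0 : ℝ)..(π / 2), f s) = 0 := by
        simp only [f]
        rw [intervalIntegral.integral_sub (hJ.intervalIntegrable _ _)
          ((hw.intervalIntegrable _ _).add hint),
          intervalIntegral.integral_add (hw.intervalIntegrable _ _) hint, hw0]
        linarith
      have hb : t < (t + π / 2) / 2 ∧ (t + π / 2) / 2 < π / 2 :=
        ⟨by linarith [ht.2], by linarith [ht.2]⟩
      set b := (t + π / 2) / 2
      have hsub : Icc t b ⊆ Ioo 0 (π / 2) := fun s hs => ⟨by linarith [ht.1, hs.1], by linarith [hs.2, hb.2]⟩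
      have hcont : ContinuousOn f (Icc t b) := by
        apply hJ.continuousOn.sub
        apply hw.continuousOn.add
        exact hw.continuousOn.mul fun s hs =>
          (hasDerivAt_dev F (hsub hs)).continuousAt.continuousWithinAt
      have hpos' : 0 < ∫ s in t..b, f s :=
        intervalIntegral.integral_pos hb.1 hcont
          (fun s hs => sub_nonneg.2 (hle s (Ioo_subset_Icc_self (hsub (Ioc_subset_Icc_self hs)))))
          ⟨t, left_mem_Icc.2 hb.1.le,
            sub_pos.2 (lt_of_le_of_ne (hle t (Ioo_subset_Icc_self ht)) hne)⟩
      have hmle : (∫ s in t..b, f s) ≤ ∫ s in (0 : ℝ)..(π / 2), f s := by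
        apply intervalIntegral.integral_mono_interval ht.1.le hb.1.le hb.2.le ?_ hfint
        filter_upwards [ae_restrict_mem measurableSet_Ioc] with s hs
        exact sub_nonneg.2 (hle s (Ioc_subset_Icc_self hs))
      linarith
    have key : ∀ t ∈ Ioo (0 : ℝ) (π / 2),
        dev S t = 0 ∧ ∀ x, logAbsDet (S.A x (x + t)) = meanLog S t := by
      intro t ht
      have h2 := exp_meanLog_le F (good_of_pos ht.1 ht.2)
      have h3 : exp (meanLog S t) = modelJacobian l k t * exp (dev S t) := by
        rw [← exp_logModel ht, ← exp_add]; congr 1; unfold dev; ring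
      have hwp := modelJacobian_pos (l := l) (k := k) ht
      have hy : dev S t = 0 := by
        by_contra hne
        have := mul_lt_mul_of_pos_left (add_one_lt_exp hne) hwp
        linarith [hzero t ht, h2.1]
      refine ⟨hy, h2.2 ?_⟩
      rw [h3, hy, exp_zero, mul_one, ← hzero t ht, hy, mul_zero, add_zero]
    exact isModelCurvature_of_pointwise F K D key
  · apply intervalIntegral.integral_congr
    intro t ht
    rw [uIcc_of_le hH] at ht
    show modelJacobian l k t = meanJacobian S t
    rw [meanJacobian_of_isModel S hmod, abs_of_nonneg]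
    unfold modelJacobian
    have hs := sin_nonneg_of_nonneg_of_le_pi ht.1 (by linarith [ht.2])
    have hc := cos_nonneg_of_mem_Icc (x := t) ⟨by linarith [ht.1], ht.2⟩
    positivity

end Vale.Agent.P231
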