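import Vale.Agent.P231.Mean.Ineq
import Vale.Agent.P231.Analysis.Integral

/-!
The averaged inequalities in normalised form.
-/

namespace Vale.Agent.P231

open Matrix Real Set

variable {l k : ℕ} {S : JacobiSystem l k}

/-- `log` of the model density. -/
noncomputable def logModel (l k : ℕ) (t : ℝ) : ℝ := l * log (sin t * cos t) + k * log (sin t)

/-- Normalised mean log-density. -/
noncomputable def dev (S : JacobiSystem l k) (t : ℝ) : ℝ := meanLog S t - logModel l k t

/-- Its first derivative. -/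
noncomputable def dev' (S : JacobiSystem l k) (t : ℝ) : ℝ :=
  meanRicc S t - (l * ((cos t ^ 2 - sin t ^ 2) / (sin t * cos t)) + k * (cos t / sin t))

/-- Its second derivative. -/
noncomputable def dev'' (S : JacobiSystem l k) (t : ℝ) : ℝ :=
  -meanInv S t + (l / (sin t * cos t) ^ 2 + k / sin t ^ 2)

/-- Normalised mean Gram term. -/
noncomputable def devGram (S : JacobiSystem l k) (t : ℝ) : ℝ :=
  meanGram S t - l * log (sin t * cos t)

theorem sin_cos_pos_pair {t : ℝ} (ht : t ∈ Ioo (0 : ℝ) (π / 2)) : 0 < sin t ∧ 0 < cos t :=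
  ⟨sin_pos_of_pos_of_lt_pi ht.1 (by linarith [ht.2, pi_pos]),
    cos_pos_of_mem_Ioo ⟨by linarith [ht.1, pi_pos], ht.2⟩⟩

theorem mem_flip {t : ℝ} (ht : t ∈ Ioo (0 : ℝ) (π / 2)) : π / 2 - t ∈ Ioo (0 : ℝ) (π / 2) :=
  ⟨by linarith [ht.2], by linarith [ht.1]⟩

theorem hasDerivAt_dev (F : JacobiFacts S) {t : ℝ} (ht : t ∈ Ioo (0 : ℝ) (π / 2)) :
    HasDerivAt (dev S) (dev' S t) t := by
  obtain ⟨hs, hc⟩ := sin_cos_pos_pair ht
  have h1 := (((hasDerivAt_sin t).fun_mul (hasDerivAt_cos t)).log (mul_pos hs hc).ne').const_mul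
    (l : ℝ)
  have h2 := ((hasDerivAt_sin t).log hs.ne').const_mul (k : ℝ)
  refine ((hasDerivAt_meanLog F (good_of_pos ht.1 ht.2)).fun_sub (h1.fun_add h2)).congr_deriv ?_
  unfold dev'
  ring

theorem hasDerivAt_dev' (F : JacobiFacts S) {t : ℝ} (ht : t ∈ Ioo (0 : ℝ) (π / 2)) :
    HasDerivAt (dev' S) (dev'' S t) t := by
  obtain ⟨hs, hc⟩ := sin_cos_pos_pair ht
  have h1 := ((((hasDerivAt_cos t).fun_pow 2).fun_sub ((hasDerivAt_sin t).fun_pow 2)).fun_div
    ((hasDerivAt_sin t).fun_mul (hasDerivAt_cos t)) (mul_pos hs hc).ne').const_mul (l : ℝ)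
  have h2 := ((hasDerivAt_cos t).fun_div (hasDerivAt_sin t) hs.ne').const_mul (k : ℝ)
  refine ((hasDerivAt_meanRicc F (good_of_pos ht.1 ht.2)).fun_sub (h1.fun_add h2)).congr_deriv ?_
  unfold dev''
  have e := sin_sq_add_cos_sq t
  push_cast
  field_simp
  linear_combination (k * cos t ^ 2 + l * (sin t ^ 2 + cos t ^ 2 + 1)) * e

theorem log_inv_sq {a : ℝ} : log (1 / a ^ 2) = -2 * log a := by
  rw [one_div, log_inv, log_pow]; push_cast; ring

theorem dev_fwd (hI : InvGramGoal) (F : JacobiFacts S) (K : KernelFacts S) {t : ℝ}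
    (ht : t ∈ Ioo (0 : ℝ) (π / 2)) :
    0 ≤ cos t ^ 2 * (2 * dev S t - sin t ^ 2 * dev'' S t) + 2 * devGram S t * sin t ^ 2 := by
  obtain ⟨hs, hc⟩ := sin_cos_pos_pair ht
  have key := meanInv_ge hI F K (α := 1 / (sin t * cos t) ^ 2) (β := 1 / sin t ^ 2)
    (good_of_pos ht.1 ht.2) (by positivity) (by positivity)
  rw [log_inv_sq, log_inv_sq] at key
  have e := sin_sq_add_cos_sq t
  have key' := mul_le_mul_of_nonneg_left key (sq_nonneg (sin t * cos t))
  have e1 : (sin t * cos t) ^ 2 * (1 / (sin t * cos t) ^ 2) = 1 := by field_simp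
  have e2 : (sin t * cos t) ^ 2 * (1 / sin t ^ 2) = cos t ^ 2 := by field_simp
  rw [mul_add, ← mul_assoc ((sin t * cos t) ^ 2), e1, one_mul, ← mul_assoc ((sin t * cos t) ^ 2), e2] at key'
  have e3 : sin t ^ 2 * cos t ^ 2 * dev'' S t
      = -((sin t * cos t) ^ 2 * meanInv S t) + (l + k * cos t ^ 2) := by
    unfold dev''; field_simp
  have e4 : cos t ^ 2 * (2 * dev S t - sin t ^ 2 * dev'' S t)
      = 2 * cos t ^ 2 * dev S t - sin t ^ 2 * cos t ^ 2 * dev'' S t := by ring
  rw [e4, e3]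
  have h4 : devGram S t * sin t ^ 2 = devGram S t * (1 - cos t ^ 2) := by rw [← e]; ring
  rw [mul_assoc (2 : ℝ) (devGram S t), h4]
  simp only [dev, devGram, logModel]
  linarith

theorem meanGram_flip (F : JacobiFacts S) (K : KernelFacts S) (t : ℝ) :
    meanGram S (-(π / 2 - t)) = meanGram S t := by
  rw [show -(π / 2 - t) = t - π / 2 by ring]; exact meanGram_sub_half F K t

theorem dev_bwd (hI : InvGramGoal) (F : JacobiFacts S) (K : KernelFacts S) {t : ℝ}
    (ht : t ∈ Ioo (0 : ℝ) (π / 2)) :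
    0 ≤ sin t ^ 2 * (2 * dev S (π / 2 - t) - cos t ^ 2 * dev'' S (π / 2 - t))
      + 2 * devGram S t * cos t ^ 2 := by
  obtain ⟨hs, hc⟩ := sin_cos_pos_pair ht
  have hr := mem_flip ht
  have key := meanInv_ge hI F K (α := 1 / (sin t * cos t) ^ 2) (β := 1 / cos t ^ 2)
    (good_neg (good_of_pos hr.1 hr.2)) (by positivity) (by positivity)
  rw [log_inv_sq, log_inv_sq, meanGram_flip F K, meanLog_neg F, meanInv_neg F] at key
  have e := sin_sq_add_cos_sq t
  have key' := mul_le_mul_of_nonneg_left key (sq_nonneg (sin t * cos t))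
  have e1 : (sin t * cos t) ^ 2 * (1 / (sin t * cos t) ^ 2) = 1 := by field_simp
  have e2 : (sin t * cos t) ^ 2 * (1 / cos t ^ 2) = sin t ^ 2 := by field_simp
  rw [mul_add, ← mul_assoc ((sin t * cos t) ^ 2), e1, one_mul, ← mul_assoc ((sin t * cos t) ^ 2), e2] at key'
  have e3 : cos t ^ 2 * sin t ^ 2 * dev'' S (π / 2 - t)
      = -((sin t * cos t) ^ 2 * meanInv S (π / 2 - t)) + (l + k * sin t ^ 2) := by
    unfold dev''; rw [sin_pi_div_two_sub, cos_pi_div_two_sub]; field_simp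
  have e4 : sin t ^ 2 * (2 * dev S (π / 2 - t) - cos t ^ 2 * dev'' S (π / 2 - t))
      = 2 * sin t ^ 2 * dev S (π / 2 - t) - cos t ^ 2 * sin t ^ 2 * dev'' S (π / 2 - t) := by ring
  rw [e4, e3]
  have h4 : devGram S t * cos t ^ 2 = devGram S t * (1 - sin t ^ 2) := by rw [← e]; ring
  rw [mul_assoc (2 : ℝ) (devGram S t), h4]
  simp only [dev, devGram, logModel, sin_pi_div_two_sub, cos_pi_div_two_sub,
    mul_comm (cos t) (sin t)]
  linarith

theorem dev_straddle (hS : StraddleGoal) (hC : CofTransposeGoal) (F : JacobiFacts S)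
    (K : KernelFacts S) {t : ℝ} (ht : t ∈ Ioo (0 : ℝ) (π / 2)) :
    meanCof S + 2 * devGram S t
      ≤ dev S t + dev S (π / 2 - t) + sin t * cos t * (dev' S t + dev' S (π / 2 - t)) := by
  obtain ⟨hs, hc⟩ := sin_cos_pos_pair ht
  have key := meanStraddle_le hS hC F K ht.1 ht.2 (γ := 1 / (sin t * cos t)) (by positivity)
  rw [one_div, log_inv, div_inv_eq_mul] at key
  have e : sin t * cos t * (dev' S t + dev' S (π / 2 - t))
      = sin t * cos t * (meanRicc S t + meanRicc S (π / 2 - t)) - k := by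
    simp only [dev', sin_pi_div_two_sub, cos_pi_div_two_sub]
    have e := sin_sq_add_cos_sq t
    field_simp
    linear_combination -(k : ℝ) * e
  rw [e, log_mul hs.ne' hc.ne'] at *
  simp only [dev, devGram, logModel, sin_pi_div_two_sub, cos_pi_div_two_sub,
    log_mul hs.ne' hc.ne', log_mul hc.ne' hs.ne']
  linarith

theorem dev_side (hS : SideGoal) (F : JacobiFacts S) (K : KernelFacts S) {t : ℝ}
    (ht : t ∈ Ioo (0 : ℝ) (π / 2)) :
    0 ≤ sin t * cos t * (dev' S t + dev' S (π / 2 - t))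
      + (cos t ^ 2 - sin t ^ 2) * (dev S t - dev S (π / 2 - t)) + meanCof S := by
  obtain ⟨hs, hc⟩ := sin_cos_pos_pair ht
  have key := meanSide_le hS F K ht.1 ht.2 (g1 := cos t / sin t) (g2 := sin t / cos t)
    (by positivity) (by positivity)
  have e := sin_sq_add_cos_sq t
  have key' := mul_le_mul_of_nonneg_left key (mul_pos hs hc).le
  rw [log_div hc.ne' hs.ne', log_div hs.ne' hc.ne', mul_add, ← mul_assoc, ← mul_assoc,
    show sin t * cos t * (cos t / sin t) = cos t ^ 2 by field_simp,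
    show sin t * cos t * (sin t / cos t) = sin t ^ 2 by field_simp] at key'
  have e1 : sin t * cos t * (dev' S t + dev' S (π / 2 - t))
      = sin t * cos t * (meanRicc S t + meanRicc S (π / 2 - t)) - k := by
    simp only [dev', sin_pi_div_two_sub, cos_pi_div_two_sub]
    field_simp
    linear_combination -(k : ℝ) * e
  rw [e1]
  have e2 : (k : ℝ) = k * cos t ^ 2 + k * sin t ^ 2 := by rw [← mul_add, add_comm, e, mul_one]
  have e3 : meanCof S = meanCof S * cos t ^ 2 + meanCof S * sin t ^ 2 := by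
    rw [← mul_add, add_comm, e, mul_one]
  simp only [dev, logModel, sin_pi_div_two_sub, cos_pi_div_two_sub, log_mul hs.ne' hc.ne',
    log_mul hc.ne' hs.ne']
  linarith

end Vale.Agent.P231
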